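import Mathlib

/-!
Local smooth isometric realisation of the metrics `du² + (a(v) + b(v) f(u))² dv²`.
-/

namespace Vale.Agent.Results.P229.MouldingMetrics

open scoped RealInnerProductSpace ContDiff
open Real MeasureTheory intervalIntegral Topology

/-- A primitive of a smooth function is smooth. -/
theorem contDiff_primitive {g : ℝ → ℝ} (hg : ContDiff ℝ ∞ g) (x₀ : ℝ) :
    ContDiff ℝ ∞ (fun x => ∫ t in x₀..x, g t) ∧
      ∀ x, HasDerivAt (fun x => ∫ t in x₀..x, g t) (g x) x := by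
  have hd : ∀ x, HasDerivAt (fun x => ∫ t in x₀..x, g t) (g x) x := fun x =>
    hg.continuous.integral_hasStrictDerivAt x₀ x |>.hasDerivAt
  refine ⟨contDiff_infty_iff_deriv.2 ⟨fun x => (hd x).differentiableAt, ?_⟩, hd⟩
  rwa [funext fun x => (hd x).deriv]

theorem result : ∀ a b f : ℝ → ℝ, ContDiff ℝ ∞ a → ContDiff ℝ ∞ b → ContDiff ℝ ∞ f →
    ∀ u₀ v₀ : ℝ, ∃ U : Set (ℝ × ℝ), IsOpen U ∧ (u₀, v₀) ∈ U ∧
      ∃ F : ℝ × ℝ → EuclideanSpace ℝ (Fin 3), ContDiffOn ℝ ∞ F U ∧ ∀ x ∈ U,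
        ⟪fderiv ℝ F x (1, 0), fderiv ℝ F x (1, 0)⟫ = 1 ∧
        ⟪fderiv ℝ F x (1, 0), fderiv ℝ F x (0, 1)⟫ = 0 ∧
        ⟪fderiv ℝ F x (0, 1), fderiv ℝ F x (0, 1)⟫ = (a x.2 + b x.2 * f x.1) ^ 2 := by
  intro a b f ha hb hf u₀ v₀
  set f' := deriv f
  have hf' : ContDiff ℝ ∞ f' := (contDiff_infty_iff_deriv.1 hf).2
  set ε : ℝ := 1 / (|f' u₀| + 1) with hε_def
  have hε : 0 < ε := by positivity
  set J := {u : ℝ | |ε * f' u| < 1}
  have hJo : IsOpen J :=
    isOpen_lt (continuous_const.mul hf'.continuous).abs continuous_const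
  have hJ0 : u₀ ∈ J := by
    show |ε * f' u₀| < 1
    rw [abs_mul, abs_of_pos hε, hε_def, div_mul_eq_mul_div, one_mul, div_lt_one (by positivity)]
    linarith
  -- the profile
  set s : ℝ → ℝ := fun u => √(1 - (ε * f' u) ^ 2)
  set q : ℝ → ℝ := fun u => ∫ t in u₀..u, s t
  have hsc : Continuous s := (continuous_const.sub ((continuous_const.mul hf'.continuous).pow 2)).sqrt
  have hq : ∀ u, HasDerivAt q (s u) u := fun u =>
    (hsc.integral_hasStrictDerivAt u₀ u).hasDerivAt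
  have hpos : ∀ u ∈ J, 0 < 1 - (ε * f' u) ^ 2 := fun u hu => by
    have : (ε * f' u) ^ 2 < 1 := (sq_lt_one_iff_abs_lt_one _).2 hu
    linarith
  have hqs : ContDiffOn ℝ ∞ q J := by
    refine (contDiffOn_infty_iff_deriv_of_isOpen hJo).2
      ⟨fun u _ => (hq u).differentiableAt.differentiableWithinAt, ?_⟩
    rw [funext fun u => (hq u).deriv]
    exact (contDiffOn_const.sub ((contDiffOn_const.mul hf'.contDiffOn).pow 2)).sqrt
      fun u hu => (hpos u hu).ne'
  -- the planar curve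
  set θ : ℝ → ℝ := fun v => ∫ t in v₀..v, -(b t / ε)
  obtain ⟨hθ, dθ⟩ := contDiff_primitive (g := fun t => -(b t / ε)) (hb.div_const ε).neg v₀
  obtain ⟨hC₁, dC₁⟩ := contDiff_primitive (g := fun t => a t * cos (θ t)) (ha.mul hθ.cos) v₀
  obtain ⟨hC₂, dC₂⟩ := contDiff_primitive (g := fun t => a t * sin (θ t)) (ha.mul hθ.sin) v₀
  set C₁ : ℝ → ℝ := fun v => ∫ t in v₀..v, a t * cos (θ t)
  set C₂ : ℝ → ℝ := fun v => ∫ t in v₀..v, a t * sin (θ t)
  let F : ℝ × ℝ → EuclideanSpace ℝ (Fin 3) := fun x => WithLp.toLp 2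
    ![C₁ x.2 - ε * f x.1 * sin (θ x.2), C₂ x.2 + ε * f x.1 * cos (θ x.2), q x.1]
  have hU : IsOpen (J ×ˢ (Set.univ : Set ℝ)) := hJo.prod isOpen_univ
  have hFs : ContDiffOn ℝ ∞ F (J ×ˢ (Set.univ : Set ℝ)) := by
    refine contDiffOn_euclidean.2 fun i => ?_
    have h1 : ContDiff ℝ ∞ fun x : ℝ × ℝ => ε * f x.1 := contDiff_const.mul (hf.comp contDiff_fst)
    have hθ' : ContDiff ℝ ∞ fun x : ℝ × ℝ => θ x.2 := hθ.comp contDiff_snd
    fin_cases i
    · exact ((hC₁.comp contDiff_snd).sub (h1.mul hθ'.sin)).contDiffOn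
    · exact ((hC₂.comp contDiff_snd).add (h1.mul hθ'.cos)).contDiffOn
    · exact hqs.comp contDiffOn_fst fun x hx => hx.1
  refine ⟨_, hU, ⟨hJ0, trivial⟩, F, hFs, ?_⟩
  rintro ⟨u, v⟩ hx
  have hd : DifferentiableAt ℝ F (u, v) :=
    (hFs.differentiableOn (by simp)).differentiableAt (hU.mem_nhds hx)
  have dfu : HasDerivAt f (f' u) u := ((hf.differentiable (by simp)) u).hasDerivAt
  -- the partial derivatives
  have e1 : fderiv ℝ F (u, v) (1, 0) =
      WithLp.toLp 2 ![-(ε * f' u * sin (θ v)), ε * f' u * cos (θ v), s u] := by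
    refine (hd.hasFDerivAt.comp_hasDerivAt u
      ((hasDerivAt_id u).prodMk (hasDerivAt_const u v))).unique ?_
    have h : HasDerivAt (fun t => ![C₁ v - ε * f t * sin (θ v), C₂ v + ε * f t * cos (θ v), q t])
        ![-(ε * f' u * sin (θ v)), ε * f' u * cos (θ v), s u] u := by
      refine hasDerivAt_pi.2 fun i => ?_
      fin_cases i
      · simpa using (((dfu.const_mul ε).mul_const (sin (θ v))).const_sub (C₁ v))
      · simpa using (((dfu.const_mul ε).mul_const (cos (θ v))).const_add (C₂ v))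
      · simpa using hq u
    exact (PiLp.hasFDerivAt_toLp (𝕜 := ℝ) 2 _).comp_hasDerivAt u h
  have e2 : fderiv ℝ F (u, v) (0, 1) = WithLp.toLp 2
      ![(a v + b v * f u) * cos (θ v), (a v + b v * f u) * sin (θ v), 0] := by
    refine (hd.hasFDerivAt.comp_hasDerivAt v
      ((hasDerivAt_const v u).prodMk (hasDerivAt_id v))).unique ?_
    have h : HasDerivAt (fun t => ![C₁ t - ε * f u * sin (θ t), C₂ t + ε * f u * cos (θ t), q u])
        ![(a v + b v * f u) * cos (θ v), (a v + b v * f u) * sin (θ v), 0] v := by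
      refine hasDerivAt_pi.2 fun i => ?_
      fin_cases i
      · refine ((dC₁ v).sub ((dθ v).sin.const_mul (ε * f u))).congr_deriv ?_
        simp only [Fin.zero_eta, Matrix.cons_val_zero]
        field_simp
        ring
      · refine ((dC₂ v).add ((dθ v).cos.const_mul (ε * f u))).congr_deriv ?_
        simp only [Fin.mk_one, Matrix.cons_val_one, Matrix.cons_val_zero]
        field_simp
        ring
      · simpa using hasDerivAt_const v (q u)
    exact (PiLp.hasFDerivAt_toLp (𝕜 := ℝ) 2 _).comp_hasDerivAt v h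
  have hs2 : s u ^ 2 = 1 - (ε * f' u) ^ 2 := Real.sq_sqrt (hpos u hx.1).le
  have hcs := Real.sin_sq_add_cos_sq (θ v)
  simp only [e1, e2, PiLp.inner_apply, Fin.sum_univ_three, Matrix.cons_val_zero,
    Matrix.cons_val_one, Matrix.cons_val, Real.inner_apply, mul_zero, add_zero]
  refine ⟨?_, by ring, ?_⟩
  · linear_combination hs2 + (ε * f' u) ^ 2 * hcs
  · linear_combination (a v + b v * f u) ^ 2 * hcs

end Vale.Agent.Results.P229.MouldingMetrics
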